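import Mathlib

/-!
# P193: interface between the group half and the algebra half

The group half turns a seed (a finitely presented algebra over the field with two elements with a
separating idempotent of one-element corner and a swindle endomorphism) into a finitely presented
simple group containing every finitely generated group of units of the algebra. The algebra half
builds a seed containing a given group with decidable word problem.
-/

namespace Vale.Agent.P193.Bh

/-- Finitely many generators and finitely many relations present the algebra. -/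
def IsFPAlgebra (A : Type) [Ring A] [Algebra (ZMod 2) A] : Prop :=
  ∃ (n : ℕ) (π : FreeAlgebra (ZMod 2) (Fin n) →ₐ[ZMod 2] A),
    Function.Surjective π ∧
      ∃ R : Finset (FreeAlgebra (ZMod 2) (Fin n)),
        (∀ r ∈ R, π r = 0) ∧
          ∀ x, π x = 0 → x ∈ TwoSidedIdeal.span (R : Set (FreeAlgebra (ZMod 2) (Fin n)))

/-- A finitely presented algebra with an idempotent `e` whose corner is `{0, e}` and which
separates: every nonzero element has a nonzero entry in that corner. -/
structure Seed where
  A : Type
  [instRing : Ring A]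
  [instAlgebra : Algebra (ZMod 2) A]
  fp : IsFPAlgebra A
  e : A
  idem : e * e = e
  e_ne : e ≠ 0
  corner : ∀ a, e * a * e = 0 ∨ e * a * e = e
  sep : ∀ a, a ≠ 0 → ∃ r s, e * r * a * s * e ≠ 0
  /-- the swindle -/
  sw : A →ₐ[ZMod 2] A
  s₀ : A
  s₁ : A
  t₀ : A
  t₁ : A
  t₀_s₀ : t₀ * s₀ = 1
  t₁_s₁ : t₁ * s₁ = 1
  t₀_s₁ : t₀ * s₁ = 0
  t₁_s₀ : t₁ * s₀ = 0
  sum_st : s₀ * t₀ + s₁ * t₁ = 1
  sw_eq : ∀ a, sw a = s₀ * a * t₀ + s₁ * sw a * t₁

attribute [instance] Seed.instRing Seed.instAlgebra

/-- The group embeds in a finitely presented simple group. -/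
def EmbedsFPSimple (G : Type) [Group G] : Prop :=
  ∃ (H : Type) (_ : Group H) (f : G →* H),
    Function.Injective f ∧ IsSimpleGroup H ∧ Group.IsFinitelyPresented H

/-- The word in the generators `s` named by a list. -/
def wordVal {G : Type} [Group G] {n : ℕ} (s : Fin n → G) (l : List (Fin n × Bool)) : G :=
  FreeGroup.lift s (FreeGroup.mk l)

/-- Goal of the group half. -/
def GroupHalf : Prop :=
  ∀ (S : Seed) (G : Type) [Group G], Group.FG G →
    ∀ u : G →* S.Aˣ, Function.Injective u → EmbedsFPSimple G

/-- Goal of the algebra half. -/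
def AlgebraHalf : Prop :=
  ∀ (G : Type) [Group G] (n : ℕ) (s : Fin n → G), Subgroup.closure (Set.range s) = ⊤ →
    ComputablePred (fun l : List (Fin n × Bool) => wordVal s l = 1) →
      ∃ (S : Seed) (u : G →* S.Aˣ), Function.Injective u

/-- The Boone-Higman conjecture. -/
def BooneHigman : Prop :=
  ∀ (G : Type) [Group G] (n : ℕ) (s : Fin n → G), Subgroup.closure (Set.range s) = ⊤ →
    ComputablePred (fun l : List (Fin n × Bool) => wordVal s l = 1) → EmbedsFPSimple G

theorem booneHigman_of_halves (h1 : GroupHalf) (h2 : AlgebraHalf) : BooneHigman := by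
  intro G _ n s hs hd
  obtain ⟨S, u, hu⟩ := h2 G n s hs hd
  exact h1 S G (Group.fg_iff.2 ⟨Set.range s, hs, Set.finite_range s⟩) u hu

end Vale.Agent.P193.Bh
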