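import Vale.Agent.P193.Bh.Interface

namespace Vale.Agent.P193.Bh

universe u

/-- The conjecture in every universe, from its form for small groups. -/
theorem booneHigman_universe (h : BooneHigman) (G : Type u) [Group G] (n : ℕ) (s : Fin n → G)
    (hs : Subgroup.closure (Set.range s) = ⊤)
    (hd : ComputablePred (fun l : List (Fin n × Bool) => FreeGroup.lift s (FreeGroup.mk l) = 1)) :
    ∃ (H : Type) (_ : Group H) (f : G →* H),
      Function.Injective f ∧ IsSimpleGroup H ∧ Group.IsFinitelyPresented H := by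
  set φ : FreeGroup (Fin n) →* G := FreeGroup.lift s with hφ
  have hsurj : Function.Surjective φ := by
    rw [← MonoidHom.range_eq_top, hφ, FreeGroup.range_lift_eq_closure, hs]
  let e : FreeGroup (Fin n) ⧸ φ.ker ≃* G := QuotientGroup.quotientKerEquivOfSurjective φ hsurj
  have he : ∀ x, e (QuotientGroup.mk x) = φ x := fun x => rfl
  let s' : Fin n → FreeGroup (Fin n) ⧸ φ.ker := fun i => QuotientGroup.mk (FreeGroup.of i)
  have hval : FreeGroup.lift s' = QuotientGroup.mk' φ.ker := FreeGroup.ext_hom _ _ fun i => by simp [s']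
  have hs' : Subgroup.closure (Set.range s') = ⊤ := by
    rw [← FreeGroup.range_lift_eq_closure, hval]
    exact MonoidHom.range_eq_top.2 (QuotientGroup.mk'_surjective _)
  obtain ⟨H, iH, f, hf, hsim, hfp⟩ := h (FreeGroup (Fin n) ⧸ φ.ker) n s' hs' (by
    refine hd.of_eq fun l => ?_
    rw [wordVal, hval, QuotientGroup.mk'_apply, QuotientGroup.eq_one_iff, MonoidHom.mem_ker])
  exact ⟨H, iH, f.comp e.symm.toMonoidHom, hf.comp e.symm.injective, hsim, hfp⟩

end Vale.Agent.P193.Bh
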